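import Vale.Agent.P199.Mult.Main
import Vale.Agent.P199.Mult.Sigma
import Vale.Agent.P199.Mult.Prod

/-!
# P199: Kurosh's problem for division rings has a negative answer
-/

/-- There is a division ring with a central subfield `k` which is finitely generated and algebraic
over `k` but infinite-dimensional; it is algebraic over its centre and not locally finite. -/
theorem Vale.Agent.Results.P199.Kurosh.result :
    ∃ (k D : Type) (_ : Field k) (_ : DivisionRing D) (_ : Algebra k D) (S : Finset D),
      Algebra.IsAlgebraic k D ∧ Algebra.adjoin k (S : Set D) = ⊤ ∧ ¬ Module.Finite k D ∧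
      Algebra.IsAlgebraic (Subring.center D) D ∧
      ¬ Module.Finite (Subring.center D) ↥(Algebra.adjoin (Subring.center D) (S : Set D)) :=
  Vale.Agent.P199.Mult.kurosh_question_of
    (Vale.Agent.P199.Mult.kurosh_of_sigma_prod Vale.Agent.P199.Mult.sigmaStmt
      (Vale.Agent.P199.Mult.prodStmt Vale.Agent.P199.Mult.formStmt Vale.Agent.P199.Mult.degStmt))
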